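import Crest.Agent.N325.Bf.Walk

/-!
# Row 325 (helper35): the batch spanner — programs and invariants

Items are edges `e` with the ends `2e`, `2e+1`; `vx` maps ends to vertices (it changes by splits).
Every living item is published or has a short walk through living published items of its class.
-/

set_option autoImplicit false

namespace Crest.Agent.N325.Ds

open Bf

/-- item of the static box: `(o, A, B, ra, ub)` -/
abbrev It := ℕ × ℕ × ℕ × List ℕ × List ℕ
/-- input of the box: `vx, nu, n, P, D, J` -/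
abbrev BI := Arr ℕ × Arr ℕ × ℕ × ℕ × ℕ × List It
/-- output of the box: published ends, walks -/
abbrev BO := List ℕ × List (ℕ × List ℕ)

/-- snapshot: walks, index, published flags -/
structure Sn where
  w : Arr (List ℕ)
  ix : Arr (List ℕ)
  h : Arr Bool

/-- batch level -/
structure Lv where
  cnt : ℕ
  lm : ℕ
  dd : ℕ
  sn : Sn
  hl : List ℕ
  S : List ℕ

/-- the state: living items, levels (finest first), items to be tested -/
structure St where
  al : Arr Bool
  ls : List Lv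
  bad : List ℕ

/-! ## programs -/

/-- number the touched vertices from `1` on -/
def numS (S : List ℕ) : R (Arr ℕ × ℕ × List ℕ) :=
  foldP (fun v s => if s.1.get v = 0 then (s.1.set v (s.2.1 + 1), s.2.1 + 1, v :: s.2.2) else s) S
    (Arr.cst 0, 0, [])

/-- the living unpublished items among the ends `C`, once each -/
def pickE (al h : Arr Bool) (C : List ℕ) : R (Arr Bool × List ℕ) :=
  foldP (fun o s => if o % 2 = 0 ∧ al.get (o / 2) = true ∧ h.get (o / 2) = false ∧
      s.1.get (o / 2) = false then (s.1.set (o / 2) true, o :: s.2) else s) C (Arr.cst false, [])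

/-- one step of the projection: state = stopped, current end, reversed prefix, reversed rest -/
def pstep (vx nu : Arr ℕ) (o : ℕ) (s : Bool × ℕ × List ℕ × List ℕ) : Bool × ℕ × List ℕ × List ℕ :=
  if s.1 = true ∨ nu.get (vx.get s.2.1) ≠ 0 then (true, s.2.1, s.2.2.1, rv o :: s.2.2.2)
  else (false, rv o, rv o :: s.2.2.1, s.2.2.2)

/-- the projection of the item with the tail end `o` and the walk `w` -/
def mkIt (vx nu : Arr ℕ) (o : ℕ) (w : List ℕ) (J : List It) : R (List It) :=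
  foldP (pstep vx nu) w (false, o, [], []) >>= fun s =>
    if nu.get (vx.get s.2.1) = 0 then pure J else
      foldP (pstep vx nu) s.2.2.2 (false, rv o, [], []) >>= fun s' =>
        rvApp s'.2.2.1 [] >>= fun ub => pure ((o, vx.get s.2.1, vx.get s'.2.1, s.2.2.1, ub) :: J)

/-- set the flags of the new published items -/
def setH (H : List ℕ) (h : Arr Bool) : R (Arr Bool × List ℕ) :=
  foldP (fun o s => if s.1.get (o / 2) = true then s else (s.1.set (o / 2) true, o / 2 :: s.2)) H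
    (h, [])

/-- add an entry to the index -/
def push (ix : Arr (List ℕ)) (v o : ℕ) : Arr (List ℕ) := ix.set v (o :: ix.get v)

/-- record the new walks -/
def setW (vx : Arr ℕ) (W : List (ℕ × List ℕ)) (w ix : Arr (List ℕ)) :
    R (Arr (List ℕ) × Arr (List ℕ)) :=
  foldL (fun x s => foldP (fun o' a => push (push a (vx.get o') x.1) (vx.get (rv o')) x.1)
    (x.1 :: x.2) s.2 >>= fun a => pure (s.1.set (x.1 / 2) x.2, a)) W (w, ix)

/-- run the box on the items `J` and record the result: snapshot, new items, tested items -/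
def fin (bx : BI → R BO) (vx nu : Arr ℕ) (n P D : ℕ) (J : List It) (sn : Sn) :
    R (Sn × List ℕ × List ℕ) :=
  bx (vx, nu, n, P, D, J) >>= fun r => setH r.1 sn.h >>= fun a => setW vx r.2 sn.w sn.ix >>= fun c =>
    mapP (fun x : ℕ × List ℕ => x.1 / 2) r.2 >>= fun l => pure (⟨c.1, c.2, a.1⟩, a.2, l)

/-- recompute from the level `y`; `P` bounds the new walks -/
def recomp (bx : BI → R BO) (vx : Arr ℕ) (al : Arr Bool) (P : ℕ) (y : Lv) :
    R (Sn × List ℕ × List ℕ) :=
  numS y.S >>= fun a => flatMapP y.sn.ix.get a.2.2 >>= fun C => pickE al y.sn.h C >>= fun E =>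
    foldL (fun o J => mkIt vx a.1 o (y.sn.w.get (o / 2)) J) E.2 [] >>= fun J =>
      fin bx vx a.1 (a.2.1 + 1) P y.dd J y.sn

/-- the odometer: new levels, unpublished, published, tested -/
def go (bx : BI → R BO) (b : ℕ) (vx : Arr ℕ) (al : Arr Bool) :
    List Lv → R (List Lv × List ℕ × List ℕ × List ℕ)
  | [] => pure ([], [], [], [])
  | [x] => pure ([x], [], [], [])
  | x :: y :: l =>
    if y.cnt < b then
      recomp bx vx al x.lm y >>= fun r =>
        pure (⟨0, x.lm, x.dd, r.1, r.2.1, []⟩ :: ⟨y.cnt + 1, y.lm, y.dd, y.sn, y.hl, y.S⟩ :: l,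
          x.hl, r.2.1, r.2.2)
    else
      call (fun _ : Unit => go bx b vx al (y :: l)) () >>= fun r =>
        revAppL x.hl r.2.1 >>= fun out =>
        pure (⟨0, x.lm, x.dd, (r.1.headD x).sn, [], []⟩ :: r.1, out, r.2.2)

/-- a default level -/
def lv0 : Lv := ⟨0, 0, 0, ⟨Arr.cst [], Arr.cst [], Arr.cst false⟩, [], []⟩

/-- the current level -/
def St.cur (s : St) : Lv := s.ls.headD lv0

/-- update: new vertex map `vx`, touched vertices `T`, killed items `K`;
result: state, unpublished items, published items -/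
def upd (bx : BI → R BO) (b : ℕ) (vx : Arr ℕ) (T K : List ℕ) (s : St) :
    R (St × List ℕ × List ℕ) :=
  foldP (fun e (a : Arr Bool × List ℕ) => if a.1.get e = true then
      (a.1.set e false, if s.cur.sn.h.get e = true then e :: a.2 else a.2) else a) K (s.al, []) >>=
    fun a => foldP (fun e T' => vx.get (2 * e) :: vx.get (2 * e + 1) :: T') K T >>= fun T' =>
      mapL (fun y : Lv => revAppL T' y.S >>= fun S' =>
        pure (⟨y.cnt, y.lm, y.dd, y.sn, y.hl, S'⟩ : Lv)) s.ls >>= fun ls =>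
        go bx b vx a.1 ls >>= fun r => filterP a.1.get r.2.1 >>= fun o2 =>
          revAppL a.2 o2 >>= fun out => revAppL r.2.2.2 s.bad >>= fun bad =>
            pure (⟨a.1, r.1, bad⟩, out, r.2.2.1)

/-- signed gradient of an oriented item -/
def sgt (gt : ℕ → ℤ) (o : ℕ) : ℤ := if o % 2 = 0 then gt (o / 2) else -gt (o / 2)

/-- gradient of a walk -/
def wgt (gt : ℕ → ℤ) (w : List ℕ) : ℤ := (w.map (sgt gt)).sum

/-- program for `wgt` -/
def wgtR (gt : Arr ℤ) (w : List ℕ) : R ℤ := foldL (fun o z => int (z + sgt gt.get o)) w 0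

/-- the test: is `e` living, unpublished and bad? -/
def tst (gt : Arr ℤ) (la : Arr ℕ) (th : ℕ) (al : Arr Bool) (sn : Sn) (e : ℕ) : R Bool :=
  if al.get e = true ∧ sn.h.get e = false then
    wgtR gt (sn.w.get e) >>= fun z => pure (decide (th * la.get e < (gt.get e - z).natAbs))
  else pure false

/-- test the candidates up to the first bad one -/
def scan (gt : Arr ℤ) (la : Arr ℕ) (th : ℕ) (al : Arr Bool) (sn : Sn) :
    List ℕ → R (List ℕ × Option ℕ)
  | [] => .tk 1 0 (.ret ([], none))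
  | e :: l => .tk 1 0 (tst gt la th al sn e >>= fun c =>
      if c = true then pure (l, some e) else scan gt la th al sn l)

/-- look for a bad item; it leaves the structure -/
def probe (gt : Arr ℤ) (la : Arr ℕ) (th : ℕ) (s : St) : R (St × Option ℕ) :=
  scan gt la th s.al s.cur.sn s.bad >>= fun x =>
    pure (⟨Option.casesOn x.2 s.al fun e => s.al.set e false, s.ls, x.1⟩, x.2)

/-- sort an item: loops get the empty walk, the others go to the box -/
def sortI (vx : Arr ℕ) (e : ℕ) (s : List It × List (ℕ × List ℕ)) :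
    R (List It × List (ℕ × List ℕ)) :=
  nat (2 * e) >>= fun o => pure (if vx.get o = vx.get (o + 1) then (s.1, (o, []) :: s.2)
    else ((o, vx.get o, vx.get (o + 1), [], []) :: s.1, s.2))

/-- build: `I` = the items, `V` = the ends of the items that are not loops, `pr` = the bounds
`(lm, dd)` of the levels above the first one (coarsest first), `P`, `D0`, `D1` = bounds of the
first level; result: state, published items -/
def build (bx : BI → R BO) (vx : Arr ℕ) (I V : List ℕ) (P D0 D1 : ℕ) (pr : List (ℕ × ℕ)) :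
    R (St × List ℕ) :=
  numS V >>= fun a => foldL (sortI vx) I ([], []) >>= fun J =>
    setW vx J.2 (Arr.cst []) (Arr.cst []) >>= fun c =>
      fin bx vx a.1 (a.2.1 + 1) P D0 J.1 ⟨c.1, c.2, Arr.cst false⟩ >>= fun r =>
        setAllP (fun _ => true) I (Arr.cst false) >>= fun al =>
          foldP (fun p (l : List Lv) => ⟨0, p.1, p.2, r.1, [], []⟩ :: l) pr
            [⟨0, P, D1, r.1, [], []⟩] >>= fun ls => pure (⟨al, ls, I⟩, r.2.1)

/-! ## specifications -/

/-- constants: base of the odometer, vertices, bounds of walks and index, recourse and time of the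
box per vertex / item -/
structure Cs where
  b : ℕ
  nV : ℕ
  LM : ℕ
  DD : ℕ
  cH : ℕ
  Cb : ℕ

/-- a valid item -/
def ItOk (vx cls : ℕ → ℕ) (S : ℕ → Prop) (Old : ℕ → ℕ → Prop) (lam : ℕ) (i : It) : Prop :=
  S i.2.1 ∧ S i.2.2.1 ∧ Wk vx i.2.1 i.2.2.2.1 (vx i.1) ∧ Wk vx (vx (rv i.1)) i.2.2.2.2 i.2.2.1 ∧
    i.2.2.2.1.length + i.2.2.2.2.length ≤ lam ∧
    ∀ o ∈ i.2.2.2.1 ++ i.2.2.2.2, Old (cls i.1) o

/-- the result of the box -/
structure BoxRes (vx cls : ℕ → ℕ) (Old : ℕ → ℕ → Prop) (J : List It) (P D' nH : ℕ) (r : BO) :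
    Prop where
  perm : (r.2.map Prod.fst).Perm (J.map Prod.fst)
  wk : ∀ x ∈ r.2, Wk vx (vx x.1) x.2 (vx (rv x.1)) ∧ x.2.length ≤ P ∧
    ∀ o ∈ x.2, Old (cls x.1) o ∨ (cls o = cls x.1 ∧ ∃ y ∈ r.1, y / 2 = o / 2)
  sub : ∀ y ∈ r.1, y ∈ J.map Prod.fst
  len : r.1.length ≤ nH
  occ : ∀ v, (r.2.map fun x => cnt vx v (x.1 :: x.2)).sum ≤ D'

/-- **the static box**; `Nx lam P`: `P` is admissible after `lam`; `Gam P` = loss in congestion -/
def BoxSpec (g : Gl) (bx : BI → R BO) (cls : ℕ → ℕ) (k : Cs) (Nx : ℕ → ℕ → Prop)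
    (Gam : ℕ → ℕ) : Prop :=
  ∀ (vx nu : Arr ℕ) (n P D lam : ℕ) (J : List It) (S : ℕ → Prop) (Old : ℕ → ℕ → Prop),
    0 < n → n ≤ k.nV + 1 → P ≤ k.LM → D ≤ k.DD → Nx lam P → (∀ v, S v → nu.get v < n) →
    (∀ u v, S u → S v → nu.get u = nu.get v → u = v) → (∀ c o, Old c o → Old c (rv o)) →
    (∀ i ∈ J, ItOk vx.get cls S Old lam i) →
    (∀ v, (J.map fun i => cnt vx.get v (i.2.2.2.1 ++ i.1 :: i.2.2.2.2)).sum ≤ D) →
    J.length ≤ n * D →
    Sp g (bx (vx, nu, n, P, D, J)) fun r t =>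
      BoxRes vx.get cls Old J P (D * Gam P) (k.cH * n) r ∧ t ≤ k.Cb * (J.length + 1)

/-- `vx` refines `vx0`, all changes are touched -/
def Chg (vx vx0 : ℕ → ℕ) (S : List ℕ) : Prop :=
  (∀ o o', vx o = vx o' → vx0 o = vx0 o') ∧ ∀ o, vx o ≠ vx0 o → vx o ∈ S ∧ vx0 o ∈ S

/-- the walk of `e` in the snapshot with the vertex map `vx0` -/
structure WOk (cls vx0 : ℕ → ℕ) (al : ℕ → Bool) (sn : Sn) (lm : ℕ) (S : List ℕ) (e : ℕ) :
    Prop where
  wk : Wk vx0 (vx0 (2 * e)) (sn.w.get e) (vx0 (2 * e + 1))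
  len : (sn.w.get e).length ≤ lm
  pub : ∀ o ∈ sn.w.get e, sn.h.get (o / 2) = true ∧ cls o = cls (2 * e) ∧
    (al (o / 2) = false → vx0 o ∈ S ∧ vx0 (rv o) ∈ S)
  ix : ∀ v, cnt vx0 v (2 * e :: sn.w.get e) ≤ (sn.ix.get v).count (2 * e)

/-- a valid snapshot -/
def SnOk (cls vx : ℕ → ℕ) (al : ℕ → Bool) (sn : Sn) (lm dd : ℕ) (S : List ℕ) : Prop :=
  ∃ vx0, Chg vx vx0 S ∧ (∀ v, (sn.ix.get v).length ≤ dd) ∧
    ∀ e, al e = true → sn.h.get e = false → WOk cls vx0 al sn lm S e

/-- a valid level -/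
structure LvOk (k : Cs) (cls vx : ℕ → ℕ) (al : ℕ → Bool) (y : Lv) : Prop where
  sn : SnOk cls vx al y.sn y.lm y.dd y.S
  lm : y.lm ≤ k.LM
  dd : y.dd ≤ k.DD
  cnt : y.cnt ≤ k.b
  lt : ∀ v ∈ y.S, v < k.nV

/-- the walk of `e` avoids `S` -/
def Un (vx : ℕ → ℕ) (sn : Sn) (S : List ℕ) (e : ℕ) : Prop :=
  ∀ o ∈ 2 * e :: sn.w.get e, vx o ∉ S ∧ vx (rv o) ∉ S

/-- the finer level `x` and the next level `y` -/
structure Lk (Nx : ℕ → ℕ → Prop) (Gam : ℕ → ℕ) (vx : ℕ → ℕ) (al : ℕ → Bool) (x y : Lv) :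
    Prop where
  sub : ∀ v ∈ x.S, v ∈ y.S
  h : ∀ e, x.sn.h.get e = true ↔ y.sn.h.get e = true ∨ e ∈ x.hl
  dj : ∀ e ∈ x.hl, y.sn.h.get e = false
  nd : x.hl.Nodup
  un : ∀ e, al e = true → y.sn.h.get e = false → Un vx y.sn y.S e →
    x.sn.w.get e = y.sn.w.get e ∧ x.sn.h.get e = false
  nx : Nx y.lm x.lm
  le : y.lm ≤ x.lm
  dd : y.dd + y.dd * Gam x.lm ≤ x.dd

/-- the reading of the odometer (on the levels below the current one) -/
def val (b : ℕ) : List Lv → ℕ
  | [] => 0
  | y :: l => y.cnt + (b + 1) * val b l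

/-- remaining scans of touched vertices -/
def phi (b : ℕ) (l : List Lv) : ℕ := (l.map fun y => (b - y.cnt) * y.S.length).sum

/-- published items that will be withdrawn -/
def psi (l : List Lv) : ℕ := (l.map fun y => y.hl.length).sum

/-- the item passed the test -/
def Cov (gt : ℕ → ℤ) (la : ℕ → ℕ) (th : ℕ) (w : List ℕ) (e : ℕ) : Prop :=
  (gt e - wgt gt w).natAbs ≤ th * la e

/-- published living items -/
def St.pub (s : St) (e : ℕ) : Prop := s.al.get e = true ∧ s.cur.sn.h.get e = true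

/-- **the invariant** after `n` updates, `L` levels below the current one -/
structure Inv (k : Cs) (Nx : ℕ → ℕ → Prop) (Gam : ℕ → ℕ) (cls : ℕ → ℕ) (gt : ℕ → ℤ)
    (la : ℕ → ℕ) (th L : ℕ) (vx : ℕ → ℕ) (s : St) (n : ℕ) : Prop where
  len : s.ls.length = L + 1
  ok : ∀ y ∈ s.ls, LvOk k cls vx s.al.get y
  lk : s.ls.IsChain (Lk Nx Gam vx s.al.get)
  cur : s.cur.S = []
  val : val k.b s.ls.tail = n
  cov : ∀ e, s.al.get e = true → s.cur.sn.h.get e = false → e ∉ s.bad →
    Cov gt la th (s.cur.sn.w.get e) e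

/-- time of one recomputation per touched vertex -/
def Cs.Cr (k : Cs) : ℕ := (k.DD + 1) * (k.Cb + 6 * k.LM + 30) + k.cH
/-- potential for the time -/
def Cs.Phi (k : Cs) (s : St) : ℕ :=
  (k.Cr + 8 * k.cH + k.DD * (k.LM + 6)) * phi k.b s.ls.tail + 8 * psi s.ls +
    (k.LM + 4) * s.bad.length
/-- potential for the recourse -/
def Cs.rc (k : Cs) (s : St) : ℕ := 2 * k.cH * phi k.b s.ls.tail + psi s.ls
/-- amortised recourse of an update with `m` touches -/
def Cs.RU (k : Cs) (L m : ℕ) : ℕ := (2 * k.cH * (k.b * L + 1) + 1) * (m + 1)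
/-- amortised time of an update with `m` touches -/
def Cs.TU (k : Cs) (L m : ℕ) : ℕ :=
  ((k.Cr + 8 * k.cH + k.DD * (k.LM + 6)) * (k.b * L + 1) + 5 * L + 20) * (m + 1)

end Crest.Agent.N325.Ds
private theorem rz_0bf16baa91 : type_of% @_root_.Crest.Agent.N325.Ds.go.eq_def := @_root_.Crest.Agent.N325.Ds.go.eq_def -- L96
private theorem rz_48915542f8 : type_of% @_root_.Crest.Agent.N325.Ds.go.eq_1 := @_root_.Crest.Agent.N325.Ds.go.eq_1 -- L96
private theorem rz_aa55fb3afa : type_of% @_root_.Crest.Agent.N325.Ds.val.eq_def := @_root_.Crest.Agent.N325.Ds.val.eq_def -- L258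
private theorem rz_5924795c0e : type_of% @_root_.Crest.Agent.N325.Ds.val.eq_1 := @_root_.Crest.Agent.N325.Ds.val.eq_1 -- L258
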